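import Vale.Agent.P354CB.Defs2

/-!
An isometry with bounded first derivative along a punctured slice extends smoothly along the slice.
-/

open scoped ContDiff
open Set Filter Topology Metric

noncomputable section

namespace Vale.Agent.P354CB76

open Vale.Agent.P354n
open Vale.Agent.P354I (X)
open Vale.Agent.P354CB
open ContinuousLinearMap (compL inl inr)

section Jet

variable {V Y : Type} [NormedAddCommGroup V] [NormedSpace ℝ V] [NormedAddCommGroup Y]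
  [NormedSpace ℝ Y] {J : Y → V} {Γ Γ' : V → V →L[ℝ] V →L[ℝ] V} {y : Y}

/-- The second derivative in terms of the first jet. -/
def sec (A B : V →L[ℝ] V →L[ℝ] V) (P : V →L[ℝ] V) : V →L[ℝ] V →L[ℝ] V :=
  (compL ℝ V V V P).comp A - ((compL ℝ V V V).flip P).comp (B.comp P)

/-- The right hand side of the total differential equation for the jet along J. -/
def xi (J : Y → V) (Γ Γ' : V → V →L[ℝ] V →L[ℝ] V) (q : Y × V × (V →L[ℝ] V)) :
    Y →L[ℝ] V × (V →L[ℝ] V) :=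
  ((inl ℝ V (V →L[ℝ] V)).comp q.2.2 +
    (inr ℝ V (V →L[ℝ] V)).comp (sec (Γ (J q.1)) (Γ' q.2.1) q.2.2)).comp (fderiv ℝ J q.1)

theorem sec_smooth {Z : Type} [NormedAddCommGroup Z] [NormedSpace ℝ Z] {z : Z}
    {A B : Z → V →L[ℝ] V →L[ℝ] V} {P : Z → V →L[ℝ] V} (a : ContDiffAt ℝ ∞ A z)
    (b : ContDiffAt ℝ ∞ B z) (p : ContDiffAt ℝ ∞ P z) :
    ContDiffAt ℝ ∞ (fun x => sec (A x) (B x) (P x)) z := by
  have u : ContDiffAt ℝ ∞ (fun x => compL ℝ V V V (P x)) z := contDiffAt_const.clm_apply p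
  have v : ContDiffAt ℝ ∞ (fun x => (compL ℝ V V V).flip (P x)) z := contDiffAt_const.clm_apply p
  exact (u.clm_comp a).sub (v.clm_comp (b.clm_comp p))

theorem xi_smooth {k : V × (V →L[ℝ] V)} (hJ : ContDiff ℝ ∞ J) (h : ContDiffAt ℝ ∞ Γ (J y))
    (h' : ContDiffAt ℝ ∞ Γ' k.1) : ContDiffAt ℝ ∞ (xi J Γ Γ') (y, k) := by
  have p : ContDiffAt ℝ ∞ (fun q : Y × V × (V →L[ℝ] V) => q.2.2) (y, k) := contDiffAt_snd.snd
  have a : ContDiffAt ℝ ∞ (fun q : Y × V × (V →L[ℝ] V) => Γ (J q.1)) (y, k) :=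
    ContDiffAt.comp (g := Γ) (y, k) h (hJ.contDiffAt.comp (y, k) contDiffAt_fst)
  have b : ContDiffAt ℝ ∞ (fun q : Y × V × (V →L[ℝ] V) => Γ' q.2.1) (y, k) :=
    ContDiffAt.comp (g := Γ') (y, k) h' contDiffAt_snd.fst
  have d : ContDiffAt ℝ ∞ (fun q : Y × V × (V →L[ℝ] V) => fderiv ℝ J q.1) (y, k) :=
    ((hJ.fderiv_right (m := ∞) le_rfl).comp contDiff_fst).contDiffAt
  exact ((contDiffAt_const.clm_comp p).add (contDiffAt_const.clm_comp (sec_smooth a b p))).clm_comp d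

theorem xi_deriv {F : V → V} (hJ : ContDiff ℝ ∞ J) (hF : ContDiffAt ℝ ∞ F (J y))
    (q : ∀ a b, fderiv ℝ (fderiv ℝ F) (J y) a b = fderiv ℝ F (J y) (Γ (J y) a b) -
      Γ' (F (J y)) (fderiv ℝ F (J y) a) (fderiv ℝ F (J y) b)) :
    HasFDerivAt (fun x => (F (J x), fderiv ℝ F (J x)))
      (xi J Γ Γ' (y, F (J y), fderiv ℝ F (J y))) y := by
  have d1 : HasFDerivAt F (fderiv ℝ F (J y)) (J y) := (hF.differentiableAt (by simp)).hasFDerivAt
  have d2 : HasFDerivAt (fderiv ℝ F) (fderiv ℝ (fderiv ℝ F) (J y)) (J y) :=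
    ((hF.fderiv_right (m := ∞) le_rfl).differentiableAt (by simp)).hasFDerivAt
  have dJ : HasFDerivAt J (fderiv ℝ J y) y := (hJ.differentiable (by simp) y).hasFDerivAt
  refine ((d1.prodMk d2).comp y dJ).congr_fderiv (ContinuousLinearMap.ext fun u =>
    Prod.ext ?_ (ContinuousLinearMap.ext fun v => ?_))
  · simp [xi]
  · simp [xi, sec, q]

end Jet

theorem ks1 (K3 : LK3) (hR : KR) : KS1 := by
  intro g D Xf g' D' Xf' h h' J y F K C hJ hy hK hD ev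
  obtain ⟨Γ, c, i⟩ := K3.gam h
  obtain ⟨Γ', c', i'⟩ := K3.gam h'
  obtain ⟨J', s, m, e⟩ := hR (R4 × (R4 →L[ℝ] R4)) y (fun x => (F (J x), fderiv ℝ F (J x)))
    (xi J Γ Γ') (K ×ˢ closedBall 0 C) (hK.prod (isCompact_closedBall 0 C))
    (fun k a => xi_smooth hJ (c.contDiffAt (h.isOpen.mem_nhds hy))
      (c'.contDiffAt (h'.isOpen.mem_nhds (hD a.1))))
    (ev.mono fun x ⟨a, b, n⟩ => ⟨⟨b, mem_closedBall_zero_iff.2 n⟩,
      xi_deriv hJ a.self_of_nhds.2.2.1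
        (K3.je h h' (G := fun z u v => Γ z u v) (G' := fun z u v => Γ' z u v) a
          ((i _ a.self_of_nhds.1 _).2 fun _ _ => rfl)
          ((i' _ a.self_of_nhds.2.1 _).2 fun _ _ => rfl))⟩)
  exact ⟨fun x => (J' x).1, s.fst, m.1, fun x a => congrArg Prod.fst (e x a)⟩

end Vale.Agent.P354CB76
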